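import Crest.Agent.N337.Slot.Defs

/-!
# Row 337: slot operators acting on the left; the symmetriser as a product of Bernoulli steps
-/

set_option autoImplicit false
set_option linter.unusedSectionVars false

namespace Crest.Agent.N337.Slot.SL

open Matrix

variable {Λ : Type} [Fintype Λ] [DecidableEq Λ]

/-- permutation of the slots. -/
def pm (g : Equiv.Perm Λ) : BOp Λ := Matrix.of fun η τ => if τ = η ∘ g then 1 else 0

theorem pm_mul_apply {κ : Type} (g : Equiv.Perm Λ) (M : Matrix (Λ → Bool) κ ℝ) (η : Λ → Bool)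
    (τ : κ) : (pm g * M) η τ = M (η ∘ g) τ := by
  simp [pm, Matrix.mul_apply]

theorem pm_mul (g h : Equiv.Perm Λ) : pm g * pm h = pm (g * h) := by
  ext η τ
  rw [pm_mul_apply]; rfl

theorem pm_one : pm (1 : Equiv.Perm Λ) = 1 := by
  ext η τ
  simp [pm, Matrix.one_apply, eq_comm]

theorem swp_eq (x y : Λ) : swp x y = pm (Equiv.swap x y) := by
  ext η τ
  simp only [swp, pm, Matrix.of_apply]
  refine if_congr ⟨fun h => ?_, fun h => ?_⟩ rfl rfl <;> subst h <;> funext z <;> simp

theorem swp_mul_apply {κ : Type} (x y : Λ) (M : Matrix (Λ → Bool) κ ℝ) (η : Λ → Bool) (τ : κ) :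
    (swp x y * M) η τ = M (η ∘ Equiv.swap x y) τ := by
  rw [swp_eq, pm_mul_apply]

theorem swp_self (x : Λ) : swp x x = 1 := by
  rw [swp_eq, Equiv.swap_self, ← pm_one]; rfl

theorem swp_comm (x y : Λ) : swp x y = swp y x := by
  rw [swp_eq, swp_eq, Equiv.swap_comm]

theorem swp_mul_self (x y : Λ) : swp x y * swp x y = 1 := by
  rw [swp_eq, pm_mul, Equiv.swap_mul_self, pm_one]

theorem swp_transpose (x y : Λ) : (swp x y)ᵀ = swp x y := by
  ext η τ
  rw [Matrix.transpose_apply]
  conv_rhs => rw [swp_eq]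
  rfl

theorem swp_conj (c d x y : Λ) :
    swp c d * swp x y = swp (Equiv.swap c d x) (Equiv.swap c d y) * swp c d := by
  simp only [swp_eq, pm_mul]
  rw [Equiv.mul_swap_eq_swap_mul]

theorem tens_one_mul_apply {κ : Type} (u : Λ) (b : Bool) (M : Matrix (Λ → Bool) κ ℝ)
    (η : Λ → Bool) (τ : κ) :
    (tens (fun y i j => if y = u then (if i = b ∧ j = !b then (1 : ℝ) else 0)
      else (if i = j then 1 else 0)) * M) η τ =
      if η u = b then M (Function.update η u (!b)) τ else 0 := by
  rw [Matrix.mul_apply, Finset.sum_eq_single (Function.update η u (!b))]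
  · simp only [tens, Matrix.of_apply]
    rw [Finset.prod_eq_single u]
    · by_cases h : η u = b <;> simp [h]
    · intro y _ hy; simp [hy]
    · simp
  · intro ρ _ hρ
    obtain ⟨y, hy⟩ := Function.ne_iff.1 hρ
    simp only [tens, Matrix.of_apply]
    rw [Finset.prod_eq_zero (Finset.mem_univ y), zero_mul]
    by_cases h : y = u
    · subst h
      rw [Function.update_self] at hy
      simp [hy]
    · rw [Function.update_of_ne h] at hy
      simp [h, Ne.symm hy]
  · simp

theorem an_mul_apply {κ : Type} (u : Λ) (M : Matrix (Λ → Bool) κ ℝ) (η : Λ → Bool) (τ : κ) :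
    (an u * M) η τ = if η u = false then M (Function.update η u true) τ else 0 :=
  tens_one_mul_apply u false M η τ

theorem cr_mul_apply {κ : Type} (u : Λ) (M : Matrix (Λ → Bool) κ ℝ) (η : Λ → Bool) (τ : κ) :
    (cr u * M) η τ = if η u = true then M (Function.update η u false) τ else 0 :=
  tens_one_mul_apply u true M η τ

/-- spin-1/2 `s^z`. -/
noncomputable def sz (u : Λ) : BOp Λ :=
  Matrix.diagonal fun η => if η u = true then -(1 / 2) else 1 / 2

/-- `s_u · s_v = T/2 - 1/4`. -/
theorem dot_eq {u v : Λ} (h : u ≠ v) :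
    sz u * sz v + (1 / 2 : ℝ) • (an u * cr v + cr u * an v) =
      (1 / 2 : ℝ) • swp u v - (1 / 4 : ℝ) • (1 : BOp Λ) := by
  ext η τ
  rw [← Matrix.mul_one (cr v), ← Matrix.mul_one (an v), ← Matrix.mul_one (swp u v),
    ← Matrix.mul_one (sz v)]
  simp only [Matrix.add_apply, Matrix.sub_apply, Matrix.smul_apply, an_mul_apply, cr_mul_apply,
    swp_mul_apply, sz, Matrix.diagonal_mul, Function.update_of_ne h.symm, smul_eq_mul]
  have e : η ∘ Equiv.swap u v = Function.update (Function.update η u (η v)) v (η u) := by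
    funext z
    by_cases h1 : z = v
    · subst h1; simp
    · by_cases h2 : z = u
      · subst h2; simp [h1]
      · simp [h1, h2, Equiv.swap_apply_of_ne_of_ne h2 h1]
  rw [e]
  rcases hu : η u with _ | _ <;> rcases hv : η v with _ | _
  · have : Function.update (Function.update η u false) v false = η := by
      rw [← hu, Function.update_eq_self, hu, ← hv, Function.update_eq_self]
    rw [this]; simp; ring
  · simp; ring
  · simp; ring
  · have : Function.update (Function.update η u true) v true = η := by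
      rw [← hu, Function.update_eq_self, hu, ← hv, Function.update_eq_self]
    rw [this]; simp; ring

/-- product of the steps of a word. -/
def wp (w : List (Λ × Λ × ℝ)) : BOp Λ := (w.map fun q => step q.1 q.2.1 q.2.2).prod

theorem mul_wp {κ : Type} (M : Matrix κ (Λ → Bool) ℝ) (w : List (Λ × Λ × ℝ))
    (h : ∀ q ∈ w, M * swp q.1 q.2.1 = M) : M * wp w = M := by
  induction w with
  | nil => simp [wp]
  | cons q w ih =>
    have : wp (q :: w) = step q.1 q.2.1 q.2.2 * wp w := by simp [wp]
    rw [this, ← Matrix.mul_assoc, step, Matrix.mul_add, Matrix.mul_smul, Matrix.mul_smul,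
      h q (by simp), Matrix.mul_one, ← add_smul, sub_add_cancel, one_smul]
    exact ih fun r hr => h r (by simp [hr])

theorem commute_wp (T : BOp Λ) (w : List (Λ × Λ × ℝ))
    (h : ∀ q ∈ w, Commute T (swp q.1 q.2.1)) : Commute T (wp w) := by
  refine Commute.list_prod_right _ _ fun M hM => ?_
  obtain ⟨q, hq, rfl⟩ := List.mem_map.1 hM
  exact ((Commute.one_right T).smul_right _).add_right ((h q hq).smul_right _)

/-- the symmetriser of the classes of `s` inside `S` is a product of steps. -/
theorem exists_sym {X : Type} [DecidableEq X] (s : Λ → X) (S : Finset Λ) :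
    ∃ w : List (Λ × Λ × ℝ),
      (∀ q ∈ w, (0 ≤ q.2.2 ∧ q.2.2 ≤ 1) ∧ q.1 ∈ S ∧ q.2.1 ∈ S ∧ s q.1 = s q.2.1) ∧
      ∀ c ∈ S, ∀ d ∈ S, s c = s d → swp c d * wp w = wp w ∧ wp w * swp c d = wp w := by
  induction S using Finset.induction_on with
  | empty => exact ⟨[], by simp, by simp⟩
  | insert a S ha ih =>
    obtain ⟨w, hw, hQ⟩ := ih
    set Sa := S.filter fun j => s j = s a with hSa
    have hmem : ∀ j, j ∈ Sa ↔ j ∈ S ∧ s j = s a := fun j => Finset.mem_filter
    rcases Sa.eq_empty_or_nonempty with h0 | ⟨b, hb⟩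
    · refine ⟨w, fun q hq => ⟨(hw q hq).1, Finset.mem_insert_of_mem (hw q hq).2.1,
        Finset.mem_insert_of_mem (hw q hq).2.2.1, (hw q hq).2.2.2⟩, fun c hc d hd hcd => ?_⟩
      have hno : ∀ j ∈ S, s j ≠ s a := fun j hj e =>
        Finset.notMem_empty j (h0 ▸ (hmem j).2 ⟨hj, e⟩)
      rcases Finset.mem_insert.1 hc with rfl | hc1 <;> rcases Finset.mem_insert.1 hd with rfl | hd1
      · simp [swp_self]
      · exact absurd hcd.symm (hno d hd1)
      · exact absurd hcd (hno c hc1)
      · exact hQ c hc1 d hd1 hcd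
    set k : ℝ := (Sa.card : ℝ) with hk
    have hk0 : 0 < k := by rw [hk]; exact_mod_cast Finset.card_pos.2 ⟨b, hb⟩
    set Q := wp w with hQdef
    set T : BOp Λ := ∑ j ∈ Sa, swp j a with hT
    have hfix : ∀ c ∈ S, ∀ d ∈ S, Equiv.swap c d a = a := fun c hc d hd =>
      Equiv.swap_apply_of_ne_of_ne (fun e => ha (e ▸ hc)) (fun e => ha (e ▸ hd))
    have hTc : ∀ c ∈ S, ∀ d ∈ S, s c = s d → Commute T (swp c d) := by
      intro c hc d hd hcd
      have hin : ∀ j ∈ Sa, Equiv.swap c d j ∈ Sa := by
        intro j hj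
        rw [hmem] at hj ⊢
        rw [Equiv.swap_apply_def]
        split_ifs with h1 h2
        · exact ⟨hd, by rw [← hcd, ← h1, hj.2]⟩
        · exact ⟨hc, by rw [hcd, ← h2, hj.2]⟩
        · exact hj
      symm
      change swp c d * T = T * swp c d
      rw [hT, Finset.mul_sum, Finset.sum_mul]
      refine Finset.sum_bij' (fun j _ => Equiv.swap c d j) (fun j _ => Equiv.swap c d j)
        hin hin (by simp) (by simp) fun j _ => ?_
      rw [swp_conj, hfix c hc d hd]
    have hTQ : Commute T Q := commute_wp T w fun q hq =>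
      hTc _ (hw q hq).2.1 _ (hw q hq).2.2.1 (hw q hq).2.2.2
    have hQQ : Q * Q = Q := mul_wp Q w fun q hq =>
      (hQ _ (hw q hq).2.1 _ (hw q hq).2.2.1 (hw q hq).2.2.2).2
    have hb' := (hmem b).1 hb
    have hj : ∀ j ∈ Sa, Q * swp j a * Q = Q * swp b a * Q := by
      intro j hj
      have hj' := (hmem j).1 hj
      obtain ⟨h1, h2⟩ := hQ j hj'.1 b hb'.1 (hj'.2.trans hb'.2.symm)
      have := swp_conj j b b a
      rw [hfix j hj'.1 b hb'.1, Equiv.swap_apply_right] at this
      calc Q * swp j a * Q = Q * swp j a * (swp j b * Q) := by rw [h1]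
        _ = Q * (swp j a * swp j b) * Q := by simp only [Matrix.mul_assoc]
        _ = Q * swp j b * swp b a * Q := by rw [← this]; simp only [Matrix.mul_assoc]
        _ = _ := by rw [h2]
    have hkQ : k • (Q * swp b a * Q) = T * Q := by
      have : Q * T * Q = k • (Q * swp b a * Q) := by
        rw [hT, Finset.mul_sum, Finset.sum_mul, Finset.sum_congr rfl hj, Finset.sum_const, hk,
          Nat.cast_smul_eq_nsmul]
      rw [← this, ← hTQ.eq, Matrix.mul_assoc, hQQ]
    have hnew : wp (w ++ (b, a, k / (k + 1)) :: w) = (1 / (k + 1)) • ((1 + T) * Q) := by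
      have : wp (w ++ (b, a, k / (k + 1)) :: w) = Q * (step b a (k / (k + 1)) * Q) := by
        simp [wp, hQdef]
      rw [this, step, Matrix.add_mul, Matrix.mul_add, Matrix.smul_mul, Matrix.smul_mul,
        Matrix.mul_smul, Matrix.mul_smul, Matrix.one_mul, hQQ, ← Matrix.mul_assoc, Matrix.add_mul,
        Matrix.one_mul, ← hkQ, smul_add, smul_smul]
      congr 2 <;> field_simp
      ring
    have hcomm : (1 + T) * Q = Q * (1 + T) := ((Commute.one_left Q).add_left hTQ).eq
    -- invariance under `(c a)`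
    have hL : ∀ c ∈ Sa, swp c a * ((1 + T) * Q) = (1 + T) * Q := by
      intro c hc
      have hc' := (hmem c).1 hc
      rw [hT, ← Finset.add_sum_erase _ _ hc, Matrix.add_mul, Matrix.add_mul, Matrix.mul_add,
        Matrix.mul_add, Matrix.one_mul, ← Matrix.mul_assoc, swp_mul_self, Matrix.one_mul,
        ← add_assoc, ← add_assoc, add_comm (swp c a * Q) Q, Finset.sum_mul, Finset.mul_sum]
      congr 1
      refine Finset.sum_congr rfl fun j hj => ?_
      have hj' := (hmem j).1 (Finset.mem_of_mem_erase hj)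
      have hja : j ≠ a := fun e => ha (e ▸ hj'.1)
      have hca : c ≠ a := fun e => ha (e ▸ hc'.1)
      have := swp_conj j a c j
      rw [Equiv.swap_apply_left,
        Equiv.swap_apply_of_ne_of_ne (Finset.ne_of_mem_erase hj).symm hca] at this
      rw [← Matrix.mul_assoc, ← this, Matrix.mul_assoc,
        (hQ c hc'.1 j hj'.1 (hc'.2.trans hj'.2.symm)).1]
    have hR : ∀ c ∈ Sa, Q * (1 + T) * swp c a = Q * (1 + T) := by
      intro c hc
      have hc' := (hmem c).1 hc
      rw [hT, ← Finset.add_sum_erase _ _ hc, Matrix.mul_add, Matrix.mul_add, Matrix.add_mul,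
        Matrix.add_mul, Matrix.mul_one, Matrix.mul_assoc Q (swp c a), swp_mul_self, Matrix.mul_one,
        ← add_assoc, ← add_assoc, add_comm (Q * swp c a) Q, Finset.mul_sum, Finset.sum_mul]
      congr 1
      refine Finset.sum_congr rfl fun j hj => ?_
      have hj' := (hmem j).1 (Finset.mem_of_mem_erase hj)
      have hja : j ≠ a := fun e => ha (e ▸ hj'.1)
      have hca : c ≠ a := fun e => ha (e ▸ hc'.1)
      have := swp_conj j a c a
      rw [Equiv.swap_apply_right,
        Equiv.swap_apply_of_ne_of_ne (Finset.ne_of_mem_erase hj).symm hca] at this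
      rw [Matrix.mul_assoc, this, ← Matrix.mul_assoc,
        (hQ c hc'.1 j hj'.1 (hc'.2.trans hj'.2.symm)).2]
    have hA : ∀ c ∈ Sa, swp c a * wp (w ++ (b, a, k / (k + 1)) :: w) =
          wp (w ++ (b, a, k / (k + 1)) :: w) ∧
        wp (w ++ (b, a, k / (k + 1)) :: w) * swp c a = wp (w ++ (b, a, k / (k + 1)) :: w) :=
      fun c hc => ⟨by rw [hnew, Matrix.mul_smul, hL c hc],
        by rw [hnew, Matrix.smul_mul, hcomm, hR c hc]⟩
    refine ⟨w ++ (b, a, k / (k + 1)) :: w, fun q hq => ?_, fun c hc d hd hcd => ?_⟩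
    · have hold : q ∈ w → (0 ≤ q.2.2 ∧ q.2.2 ≤ 1) ∧ q.1 ∈ insert a S ∧ q.2.1 ∈ insert a S ∧
          s q.1 = s q.2.1 := fun hq => ⟨(hw q hq).1, Finset.mem_insert_of_mem (hw q hq).2.1,
        Finset.mem_insert_of_mem (hw q hq).2.2.1, (hw q hq).2.2.2⟩
      rcases List.mem_append.1 hq with hq | hq
      · exact hold hq
      rcases List.mem_cons.1 hq with rfl | hq
      · exact ⟨⟨by positivity, (div_le_one (by positivity)).2 (by linarith)⟩,
          Finset.mem_insert_of_mem hb'.1, Finset.mem_insert_self _ _, hb'.2⟩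
      · exact hold hq
    · rcases Finset.mem_insert.1 hc with rfl | hc1 <;> rcases Finset.mem_insert.1 hd with rfl | hd1
      · simp [swp_self]
      · rw [swp_comm]; exact hA d ((hmem d).2 ⟨hd1, hcd.symm⟩)
      · exact hA c ((hmem c).2 ⟨hc1, hcd⟩)
      · obtain ⟨h1, h2⟩ := hQ c hc1 d hd1 hcd
        exact ⟨by rw [hnew, hcomm, Matrix.mul_smul, ← Matrix.mul_assoc, h1],
          by rw [hnew, Matrix.smul_mul, Matrix.mul_assoc, h2]⟩

end Crest.Agent.N337.Slot.SL
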