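import Crest.Agent.N337.BasicS
import Crest.Agent.N337.Slot.Sym

/-!
# Row 337: `slot : SlotStmt`
-/

set_option autoImplicit false
set_option linter.unusedSectionVars false

namespace Crest.Agent.N337.Slot

open Crest.MathPhysics.SpinModel Matrix

namespace SL

variable {X : Type} [Fintype X] [DecidableEq X] {n : ℕ}

/-- number of down slots of the site `x`. -/
def dn (η : X × Fin n → Bool) (x : X) : ℕ := cnt fun i => η (x, i)

theorem dn_le (η : X × Fin n → Bool) (x : X) : dn η x ≤ n :=
  (Finset.card_filter_le _ _).trans (Finset.card_fin n).le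

theorem card_cnt (k : ℕ) :
    (Finset.univ.filter fun f : Fin n → Bool => cnt f = k).card = n.choose k := by
  have : n.choose k = (Finset.powersetCard k (Finset.univ : Finset (Fin n))).card := by simp
  rw [this]
  refine Finset.card_bij' (fun f _ => Finset.univ.filter fun i => f i = true)
    (fun s _ i => decide (i ∈ s)) (fun f hf => ?_) (fun s hs => ?_) (fun f _ => ?_) (fun s _ => ?_)
  · exact Finset.mem_powersetCard.2 ⟨Finset.subset_univ _, (Finset.mem_filter.1 hf).2⟩
  · refine Finset.mem_filter.2 ⟨Finset.mem_univ _, ?_⟩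
    rw [← (Finset.mem_powersetCard.1 hs).2, cnt]
    congr 1; ext i; simp
  · funext i; simp
  · ext i; simp

theorem sum_dn (F : X → ℕ → ℝ) :
    ∑ η : X × Fin n → Bool, ∏ x, F x (dn η x) = ∏ x, ∑ f : Fin n → Bool, F x (cnt f) := by
  rw [Finset.prod_univ_sum, Fintype.piFinset_univ]
  exact Fintype.sum_equiv (Equiv.curry X (Fin n) Bool) _ _ fun η => rfl

theorem dn_update_ne (η : X × Fin n → Bool) {x y : X} (h : y ≠ x) (i : Fin n) (b : Bool) :
    dn (Function.update η (x, i) b) y = dn η y := by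
  unfold dn
  congr 1
  funext j
  exact Function.update_of_ne (by simp [h]) _ _

theorem dn_update_true (η : X × Fin n → Bool) (x : X) (i : Fin n) (h : η (x, i) = false) :
    dn (Function.update η (x, i) true) x = dn η x + 1 := by
  unfold dn cnt
  rw [← Finset.card_insert_of_notMem (a := i) (by simp [h])]
  congr 1
  ext j
  by_cases hj : j = i
  · subst hj; simp
  · simp [hj]

theorem dn_update_false (η : X × Fin n → Bool) (x : X) (i : Fin n) (h : η (x, i) = true) :
    dn (Function.update η (x, i) false) x = dn η x - 1 := by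
  have := dn_update_true (Function.update η (x, i) false) x i (by simp)
  have e : Function.update η (x, i) true = η := by rw [← h, Function.update_eq_self]
  rw [Function.update_idem, e] at this
  omega

theorem sum_true (η : X × Fin n → Bool) (x : X) (c : ℝ) :
    ∑ i, (if η (x, i) = true then c else 0) = dn η x * c := by
  rw [← Finset.sum_filter, Finset.sum_const, nsmul_eq_mul]; rfl

theorem sum_false (η : X × Fin n → Bool) (x : X) (c : ℝ) :
    ∑ i, (if η (x, i) = false then c else 0) = ((n : ℝ) - dn η x) * c := by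
  have : ∀ i, (if η (x, i) = false then c else 0) = c - if η (x, i) = true then c else 0 :=
    fun i => by cases η (x, i) <;> simp
  simp only [this, Finset.sum_sub_distrib, sum_true]
  simp; ring

theorem dn_swap (η : X × Fin n → Bool) {u v : X × Fin n} (h : u.1 = v.1) (x : X) :
    dn (η ∘ Equiv.swap u v) x = dn η x := by
  obtain ⟨y, i⟩ := u
  obtain ⟨y', j⟩ := v
  obtain rfl : y = y' := h
  unfold dn cnt
  by_cases hx : x = y
  · subst hx
    refine Finset.card_bij' (fun a _ => Equiv.swap i j a) (fun a _ => Equiv.swap i j a)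
      (fun a ha => ?_) (fun a ha => ?_) (by simp) (by simp)
    all_goals
      have e : ∀ a, Equiv.swap (x, i) (x, j) (x, a) = (x, Equiv.swap i j a) := fun a =>
        (Prod.mk_right_injective x).swap_apply i j a
      simp only [Finset.mem_filter, Finset.mem_univ, true_and, Function.comp_apply, e,
        Equiv.swap_apply_self] at ha ⊢
      exact ha
  · congr 1
    ext a
    simp only [Finset.mem_filter, Finset.mem_univ, true_and, Function.comp_apply]
    rw [Equiv.swap_apply_of_ne_of_ne (by simp [hx]) (by simp [hx])]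

/-- a function invariant under the transpositions inside the sites depends only on `dn`. -/
theorem eq_of_dn (F : (X × Fin n → Bool) → ℝ)
    (hF : ∀ η u v, u.1 = v.1 → F (η ∘ Equiv.swap u v) = F η) (η' : X × Fin n → Bool) (m : ℕ) :
    ∀ η : X × Fin n → Bool, (Finset.univ.filter fun u => η u ≠ η' u).card = m →
      (∀ x, dn η x = dn η' x) → F η = F η' := by
  induction m using Nat.strong_induction_on with
  | _ m ih =>
  intro η hm hd
  by_cases h0 : η = η'
  · rw [h0]
  obtain ⟨⟨x, i⟩, hu⟩ := Function.ne_iff.1 h0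
  have hv : ∃ j, η (x, j) ≠ η' (x, j) ∧ η (x, j) ≠ η (x, i) := by
    by_contra hne
    push Not at hne
    have h1 := hd x
    unfold dn cnt at h1
    rcases hb : η (x, i) with _ | _
    · refine absurd h1 (Finset.card_lt_card ⟨fun a ha => ?_, fun hs => ?_⟩).ne
      · simp only [Finset.mem_filter, Finset.mem_univ, true_and] at ha ⊢
        by_contra h2
        have := hne a (by rw [ha]; exact Ne.symm h2)
        rw [ha, hb] at this; exact absurd this (by simp)
      · have : η' (x, i) = true := by rw [hb] at hu; simpa using hu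
        have := hs (Finset.mem_filter.2 ⟨Finset.mem_univ i, this⟩)
        simp [hb] at this
    · refine absurd h1 (Finset.card_lt_card ⟨fun a ha => ?_, fun hs => ?_⟩).ne'
      · simp only [Finset.mem_filter, Finset.mem_univ, true_and] at ha ⊢
        by_contra h2
        exact h2 ((hne a (by rw [ha]; exact h2)).trans hb)
      · have := hs (Finset.mem_filter.2 ⟨Finset.mem_univ i, hb⟩)
        simp only [Finset.mem_filter, Finset.mem_univ, true_and] at this
        exact hu (hb.trans this.symm)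
  obtain ⟨j, hj1, hj2⟩ := hv
  rw [← hF η (x, i) (x, j) rfl]
  refine ih _ ?_ _ rfl fun y => by rw [dn_swap η (u := (x, i)) (v := (x, j)) rfl, hd]
  rw [← hm]
  refine Finset.card_lt_card ⟨fun a ha => ?_, fun hs => ?_⟩
  · simp only [Finset.mem_filter, Finset.mem_univ, true_and, Function.comp_apply] at ha ⊢
    by_cases h1 : a = (x, i)
    · rw [h1]; exact hu
    by_cases h2 : a = (x, j)
    · rw [h2]; exact hj1
    rwa [Equiv.swap_apply_of_ne_of_ne h1 h2] at ha
  · have := hs (Finset.mem_filter.2 ⟨Finset.mem_univ (x, i), hu⟩)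
    simp only [Finset.mem_filter, Finset.mem_univ, true_and, Function.comp_apply,
      Equiv.swap_apply_left] at this
    revert this hu hj2
    cases η (x, i) <;> cases η (x, j) <;> cases η' (x, i) <;> simp

/-- one-site amplitude. -/
noncomputable def u1 (n k : ℕ) (s : Fin (n + 1)) : ℝ :=
  if k + s = n then 1 / Real.sqrt (n.choose s) else 0

/-- the isometry onto the symmetric subspace. -/
noncomputable def UU (X : Type) [Fintype X] [DecidableEq X] (n : ℕ) :
    Matrix (X × Fin n → Bool) (X → Fin (n + 1)) ℝ :=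
  Matrix.of fun η σ => ∏ x, u1 n (dn η x) (σ x)

theorem choose_pos' (s : Fin (n + 1)) : (0 : ℝ) < n.choose s := by
  exact_mod_cast Nat.choose_pos (Nat.le_of_lt_succ s.2)

theorem sum_u1 (s t : Fin (n + 1)) :
    ∑ f : Fin n → Bool, u1 n (cnt f) s * u1 n (cnt f) t = if s = t then 1 else 0 := by
  split_ifs with h
  · subst h
    have hs := Nat.le_of_lt_succ s.2
    have : ∀ f : Fin n → Bool, u1 n (cnt f) s * u1 n (cnt f) s =
        if cnt f = n - s then 1 / (n.choose s : ℝ) else 0 := fun f => by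
      unfold u1
      by_cases h : cnt f + s = n
      · rw [if_pos h, if_pos (by omega), div_mul_div_comm, one_mul,
          Real.mul_self_sqrt (choose_pos' s).le]
      · rw [if_neg h, if_neg (by omega), zero_mul]
    simp only [this]
    rw [← Finset.sum_filter, Finset.sum_const, card_cnt, Nat.choose_symm hs, nsmul_eq_mul,
      mul_one_div_cancel (choose_pos' s).ne']
  · refine Finset.sum_eq_zero fun f _ => ?_
    unfold u1
    split_ifs with h1 h2
    · exact absurd (Fin.ext (by omega)) h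
    all_goals simp

theorem UU_iso : (UU X n)ᵀ * UU X n = 1 := by
  ext σ τ
  simp only [Matrix.mul_apply, Matrix.transpose_apply, UU, Matrix.of_apply,
    ← Finset.prod_mul_distrib]
  rw [sum_dn fun x k => u1 n k (σ x) * u1 n k (τ x)]
  simp only [sum_u1, Matrix.one_apply]
  rw [Finset.prod_ite_zero]
  simp [funext_iff]

theorem swp_UU {u v : X × Fin n} (h : u.1 = v.1) : swp u v * UU X n = UU X n := by
  ext η σ
  simp only [swp_mul_apply, UU, Matrix.of_apply, dn_swap η h]

/-- `U Uᵀ` fixes the symmetric vectors. -/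
theorem UU_proj (Q : BOp (X × Fin n)) (hQ : ∀ u v, u.1 = v.1 → swp u v * Q = Q) :
    UU X n * ((UU X n)ᵀ * Q) = Q := by
  ext η τ
  have hF : ∀ η', (∀ x, dn η' x = dn η x) → Q η' τ = Q η τ := fun η' h =>
    eq_of_dn (fun ρ => Q ρ τ) (fun ρ u v huv => by rw [← swp_mul_apply u v Q, hQ u v huv]) η _ η' rfl h
  set σ0 : X → Fin (n + 1) := fun x => ⟨n - dn η x, by omega⟩ with hσ0
  have hz : ∀ (η' : X × Fin n → Bool) (σ : X → Fin (n + 1)), UU X n η' σ ≠ 0 →
      ∀ x, dn η' x + σ x = n := fun η' σ h x => by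
    by_contra hx
    exact h (Finset.prod_eq_zero (Finset.mem_univ x) (if_neg hx))
  rw [Matrix.mul_apply, Finset.sum_eq_single σ0]
  · rw [Matrix.mul_apply, Finset.mul_sum]
    have h1 : ∑ η', UU X n η' σ0 * UU X n η' σ0 = 1 := by
      simpa [Matrix.mul_apply] using congrFun (congrFun (UU_iso (X := X) (n := n)) σ0) σ0
    rw [← one_mul (Q η τ), ← h1, Finset.sum_mul]
    refine Finset.sum_congr rfl fun η' _ => ?_
    rw [Matrix.transpose_apply]
    by_cases h : UU X n η' σ0 = 0
    · simp [h]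
    · have hd : ∀ x, dn η' x = dn η x := fun x => by
        have h2 := hz η' σ0 h x
        have h3 := dn_le η x
        simp only [hσ0] at h2
        omega
      have : UU X n η σ0 = UU X n η' σ0 := by simp only [UU, Matrix.of_apply, hd]
      rw [hF η' hd, this, mul_assoc]
  · intro σ _ hσ
    rw [mul_eq_zero]; left
    by_contra h
    refine hσ (funext fun x => Fin.ext ?_)
    have := hz η σ h x
    simp only [hσ0]
    omega
  · simp

theorem UU_sym : ∃ w : List ((X × Fin n) × (X × Fin n) × ℝ), (∀ q ∈ w, 0 ≤ q.2.2 ∧ q.2.2 ≤ 1) ∧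
    UU X n * (UU X n)ᵀ = (w.map fun q => step q.1 q.2.1 q.2.2).prod := by
  obtain ⟨w, hw, hQ⟩ := exists_sym (Prod.fst : X × Fin n → X) Finset.univ
  refine ⟨w, fun q hq => (hw q hq).1, ?_⟩
  have h1 : (UU X n)ᵀ * wp w = (UU X n)ᵀ := mul_wp _ w fun q hq => by
    rw [← swp_transpose, ← Matrix.transpose_mul, swp_UU (hw q hq).2.2.2]
  rw [← h1]
  exact UU_proj _ fun u v h => (hQ u (Finset.mem_univ _) v (Finset.mem_univ _) h).1

/-! ### intertwining -/

theorem sqrt_key {a b c0 c1 : ℝ} (hb : 0 ≤ b) (ha : 0 ≤ a) (h0 : 0 < c0) (h1 : 0 < c1)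
    (h : c1 * b = c0 * a) : 1 / Real.sqrt c1 * Real.sqrt (a * b) = b * (1 / Real.sqrt c0) := by
  have e : Real.sqrt (a * b) * Real.sqrt c0 = b * Real.sqrt c1 := by
    rw [← Real.sqrt_mul (mul_nonneg ha hb), show a * b * c0 = b * b * c1 by linear_combination -b * h,
      Real.sqrt_mul (mul_nonneg hb hb), Real.sqrt_mul_self hb]
  have := Real.sqrt_pos.2 h0
  have := Real.sqrt_pos.2 h1
  field_simp
  linarith

theorem choose_key {i : ℕ} (hi : i < n) :
    (n.choose (i + 1) : ℝ) * ((i : ℝ) + 1) = (n.choose i : ℝ) * ((n : ℝ) - i) := by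
  have := Nat.choose_succ_right_eq n i
  rw [← Nat.cast_sub hi.le]
  exact_mod_cast this

theorem u1_plus (k : ℕ) (s : Fin (n + 1)) :
    ∑ i, spinPlus n i s * (u1 n k i : ℂ) = ((((n : ℝ) - k) * u1 n (k + 1) s : ℝ) : ℂ) := by
  by_cases h : k + 1 + s = n
  · rw [Finset.sum_eq_single (⟨s + 1, by omega⟩ : Fin (n + 1))]
    · rw [spinPlus_apply, if_pos rfl, ← Complex.ofReal_mul, u1, u1, if_pos h,
        if_pos (by simp only; omega), mul_comm]
      have hs : (s : ℕ) < n := by omega
      have hn : (n : ℝ) - k = (s : ℕ) + 1 := by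
        have : (k : ℝ) + 1 + (s : ℕ) = n := by exact_mod_cast h
        linarith
      rw [hn, sqrt_key (by positivity) (sub_nonneg.2 (by exact_mod_cast hs.le)) (choose_pos' s)
        (choose_pos' ⟨s + 1, by omega⟩) (choose_key hs)]
    · intro i _ hi
      rw [spinPlus_apply, if_neg (fun e => hi (Fin.ext e)), zero_mul]
    · simp
  · rw [u1, if_neg h, mul_zero, Complex.ofReal_zero]
    refine Finset.sum_eq_zero fun i _ => ?_
    rw [spinPlus_apply, u1]
    split_ifs with h1 h2
    · omega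
    all_goals simp

theorem u1_minus {k : ℕ} (hk : k ≤ n) (s : Fin (n + 1)) :
    ∑ i, spinMinus n i s * (u1 n k i : ℂ) = (((k : ℝ) * u1 n (k - 1) s : ℝ) : ℂ) := by
  rw [Finset.sum_eq_single (⟨n - k, by omega⟩ : Fin (n + 1))]
  · rw [spinMinus_eq, Matrix.transpose_apply, spinPlus_apply, u1, u1,
      if_pos (show k + (n - k) = n by omega)]
    by_cases h : (s : ℕ) = n - k + 1
    · have hs := s.2
      rw [if_pos h, if_pos (by omega), ← Complex.ofReal_mul, mul_comm, mul_comm ((n : ℝ) - _), h]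
      have hi : n - k < n := by omega
      have hn : (k : ℝ) = n - ((n - k : ℕ) : ℝ) := by rw [Nat.cast_sub hk]; ring
      congr 1
      rw [sqrt_key (sub_nonneg.2 (by exact_mod_cast hi.le)) (by positivity)
        (choose_pos' ⟨n - k + 1, by omega⟩) (choose_pos' ⟨n - k, by omega⟩) (choose_key hi).symm,
        ← hn]
    · rw [if_neg h, zero_mul]
      rcases Nat.eq_zero_or_pos k with rfl | h0
      · simp
      · rw [if_neg (by omega)]; simp
  · intro i _ hi
    rw [u1, if_neg (fun e => hi (Fin.ext (by simp only; omega)))]; simp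
  · simp

/-- the factors of the other sites. -/
noncomputable def rest (η : X × Fin n → Bool) (σ : X → Fin (n + 1)) (x : X) : ℝ :=
  ∏ y ∈ Finset.univ.erase x, u1 n (dn η y) (σ y)

theorem UU_upd_right (η : X × Fin n → Bool) (σ : X → Fin (n + 1)) (x : X) (s : Fin (n + 1)) :
    UU X n η (Function.update σ x s) = u1 n (dn η x) s * rest η σ x := by
  simp only [UU, Matrix.of_apply]
  rw [← Finset.mul_prod_erase _ _ (Finset.mem_univ x), Function.update_self]
  congr 1
  exact Finset.prod_congr rfl fun y hy => by rw [Function.update_of_ne (Finset.ne_of_mem_erase hy)]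

theorem UU_upd_left (η : X × Fin n → Bool) (σ : X → Fin (n + 1)) (x : X) (i : Fin n) (b : Bool) :
    UU X n (Function.update η (x, i) b) σ =
      u1 n (dn (Function.update η (x, i) b) x) (σ x) * rest η σ x := by
  simp only [UU, Matrix.of_apply]
  rw [← Finset.mul_prod_erase _ _ (Finset.mem_univ x)]
  congr 1
  exact Finset.prod_congr rfl fun y hy => by rw [dn_update_ne η (Finset.ne_of_mem_erase hy)]

theorem UU_mul_site (x : X) (A : Matrix (Fin (n + 1)) (Fin (n + 1)) ℂ) (η : X × Fin n → Bool)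
    (σ : X → Fin (n + 1)) : ((UU X n).map ((↑) : ℝ → ℂ) * siteOpOn x A) η σ =
      (∑ i, A i (σ x) * (u1 n (dn η x) i : ℂ)) * (rest η σ x : ℂ) := by
  rw [← Matrix.transpose_apply ((UU X n).map ((↑) : ℝ → ℂ) * siteOpOn x A), Matrix.transpose_mul,
    site_transpose, site_mul_apply, Finset.sum_mul]
  refine Finset.sum_congr rfl fun i _ => ?_
  rw [Matrix.transpose_apply, Matrix.transpose_apply, Matrix.map_apply, UU_upd_right,
    Complex.ofReal_mul, mul_assoc]

theorem map_mul_UU (M : BOp (X × Fin n)) :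
    M.map ((↑) : ℝ → ℂ) * (UU X n).map ((↑) : ℝ → ℂ) = (M * UU X n).map ((↑) : ℝ → ℂ) :=
  (Matrix.map_mul (f := Complex.ofRealHom)).symm

theorem UU_Sp (x : X) : (UU X n).map ((↑) : ℝ → ℂ) * Sp n x =
    (∑ i : Fin n, an (x, i)).map ((↑) : ℝ → ℂ) * (UU X n).map ((↑) : ℝ → ℂ) := by
  ext η σ
  rw [map_mul_UU, Sp, UU_mul_site, u1_plus, Matrix.map_apply, ← Complex.ofReal_mul,
    Matrix.sum_mul, Matrix.sum_apply, mul_assoc, ← sum_false]
  congr 1
  refine Finset.sum_congr rfl fun i _ => ?_
  rw [an_mul_apply]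
  split_ifs with h
  · rw [UU_upd_left, dn_update_true η x i h]
  · rfl

theorem UU_Sm (x : X) : (UU X n).map ((↑) : ℝ → ℂ) * Sm n x =
    (∑ i : Fin n, cr (x, i)).map ((↑) : ℝ → ℂ) * (UU X n).map ((↑) : ℝ → ℂ) := by
  ext η σ
  rw [map_mul_UU, Sm, UU_mul_site, u1_minus (dn_le η x), Matrix.map_apply, ← Complex.ofReal_mul,
    Matrix.sum_mul, Matrix.sum_apply, mul_assoc, ← sum_true]
  congr 1
  refine Finset.sum_congr rfl fun i _ => ?_
  rw [cr_mul_apply]
  split_ifs with h
  · rw [UU_upd_left, dn_update_false η x i h]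
  · rfl

theorem sum_sz (x : X) : (∑ i : Fin n, sz (x, i) : BOp (X × Fin n)) =
    Matrix.diagonal fun η => (n : ℝ) / 2 - dn η x := by
  ext η τ
  rw [Matrix.sum_apply]
  by_cases h : η = τ
  · subst h
    have : ∀ i, sz (x, i) η η = 1 / 2 - if η (x, i) = true then (1 : ℝ) else 0 := fun i => by
      rw [sz, Matrix.diagonal_apply_eq]; split_ifs <;> norm_num
    simp only [this, Finset.sum_sub_distrib, sum_true]
    simp; ring
  · simp [sz, h]

theorem UU_Sz (x : X) : (UU X n).map ((↑) : ℝ → ℂ) * Sz n x =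
    (∑ i : Fin n, sz (x, i)).map ((↑) : ℝ → ℂ) * (UU X n).map ((↑) : ℝ → ℂ) := by
  ext η σ
  rw [map_mul_UU, Sz_eq, Matrix.mul_diagonal, sum_sz, Matrix.map_apply, Matrix.map_apply,
    Matrix.diagonal_mul, ← Complex.ofReal_mul, mul_comm]
  congr 1
  by_cases h : dn η x + σ x = n
  · have : (n : ℝ) = dn η x + (σ x : ℕ) := by exact_mod_cast h.symm
    congr 1
    unfold levelM
    linarith
  · have : UU X n η σ = 0 := Finset.prod_eq_zero (Finset.mem_univ x) (if_neg h)
    simp [this]

theorem cnt_eq (η : X × Fin n → Bool) : (cnt η : ℝ) = ∑ x, (dn η x : ℝ) := by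
  have : (cnt η : ℝ) = ∑ u, if η u = true then (1 : ℝ) else 0 := by
    rw [← Finset.sum_filter, Finset.sum_const, nsmul_eq_mul, mul_one]; rfl
  rw [this, Fintype.sum_prod_type]
  simp only [sum_true, mul_one]

theorem real_ham {J : X → X → ℝ} (hJ : Ferro J) (h : ℝ) :
    -(1 / 2 : ℝ) • ∑ x : X, ∑ y : X, J x y •
      ((∑ i : Fin n, sz (x, i)) * (∑ i : Fin n, sz (y, i)) + (1 / 2 : ℝ) •
        ((∑ i : Fin n, an (x, i)) * (∑ i : Fin n, cr (y, i)) +
          (∑ i : Fin n, cr (x, i)) * (∑ i : Fin n, an (y, i)))) -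
        h • ∑ x : X, ∑ i : Fin n, sz (x, i) =
      (-(∑ u : X × Fin n, ∑ v : X × Fin n, J u.1 v.1 / 8) - h * (Fintype.card X * (n / 2))) •
        (1 : BOp (X × Fin n)) - gen (fun u v : X × Fin n => J u.1 v.1 / 2) h := by
  have h1 : ∑ x : X, ∑ i : Fin n, (sz (x, i) : BOp (X × Fin n)) =
      ((Fintype.card X : ℝ) * (n / 2)) • (1 : BOp (X × Fin n)) -
        Matrix.diagonal fun σ => (cnt σ : ℝ) := by
    simp only [sum_sz]
    ext η τ
    rw [Matrix.sum_apply]
    by_cases e : η = τ
    · subst e; simp [cnt_eq, Finset.sum_sub_distrib]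
    · simp [e]
  have h2 : ∑ x : X, ∑ y : X, J x y •
      ((∑ i : Fin n, sz (x, i)) * (∑ i : Fin n, sz (y, i)) + (1 / 2 : ℝ) •
        ((∑ i : Fin n, an (x, i)) * (∑ i : Fin n, cr (y, i)) +
          (∑ i : Fin n, cr (x, i)) * (∑ i : Fin n, an (y, i)))) =
      ∑ u : X × Fin n, ∑ v : X × Fin n, J u.1 v.1 •
        ((1 / 2 : ℝ) • swp u v - (1 / 4 : ℝ) • (1 : BOp (X × Fin n))) := by
    rw [Fintype.sum_prod_type]
    refine Finset.sum_congr rfl fun x _ => ?_
    rw [Finset.sum_comm, Fintype.sum_prod_type]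
    refine Finset.sum_congr rfl fun y _ => ?_
    by_cases e : x = y
    · subst e; simp [hJ.diag]
    rw [Finset.sum_comm]
    simp only [Finset.sum_mul_sum, ← Finset.sum_add_distrib, Finset.smul_sum]
    refine Finset.sum_congr rfl fun i _ => Finset.sum_congr rfl fun j _ => ?_
    rw [dot_eq (by simp [e])]
  rw [h1, h2, gen, sub_smul, neg_smul (∑ u : X × Fin n, _), Finset.sum_smul, Finset.smul_sum]
  have h3 : ∀ u : X × Fin n, -(1 / 2 : ℝ) • ∑ v : X × Fin n, J u.1 v.1 •
        ((1 / 2 : ℝ) • swp u v - (1 / 4 : ℝ) • (1 : BOp (X × Fin n))) =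
      -((∑ v : X × Fin n, J u.1 v.1 / 8) • (1 : BOp (X × Fin n))) -
        ∑ v : X × Fin n, (J u.1 v.1 / 2 / 2) • (swp u v - 1) := fun u => by
    rw [Finset.sum_smul, Finset.smul_sum, ← Finset.sum_neg_distrib, ← Finset.sum_sub_distrib]
    refine Finset.sum_congr rfl fun v _ => ?_
    module
  simp only [h3, Finset.sum_sub_distrib, Finset.sum_neg_distrib]
  module

end SL

open SL in
theorem slot : SlotStmt := by
  intro X _ _ n J h _ hJ
  obtain ⟨w, hw, hU⟩ := UU_sym (X := X) (n := n)
  refine ⟨UU X n, -(∑ u : X × Fin n, ∑ v : X × Fin n, J u.1 v.1 / 8) - h * (Fintype.card X * (n / 2)),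
    w, hw, UU_iso, hU, UU_Sp, UU_Sm, ?_⟩
  rw [← real_ham hJ h]
  let φ : BOp (X × Fin n) →ₐ[ℝ] Matrix (X × Fin n → Bool) (X × Fin n → Bool) ℂ :=
    Complex.ofRealAm.mapMatrix
  have hφ : ∀ M : BOp (X × Fin n), M.map ((↑) : ℝ → ℂ) = φ M := fun M => rfl
  have e1 : (1 / 2 : ℂ) = ((1 / 2 : ℝ) : ℂ) := by push_cast; rfl
  have hZ := UU_Sz (X := X) (n := n)
  have hP := UU_Sp (X := X) (n := n)
  have hM := UU_Sm (X := X) (n := n)
  simp only [hφ] at hZ hP hM ⊢
  have hD : ∀ x y : X, (UU X n).map ((↑) : ℝ → ℂ) * spinDotOn n x y =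
      φ ((∑ i : Fin n, sz (x, i)) * (∑ i : Fin n, sz (y, i)) + (1 / 2 : ℝ) •
        ((∑ i : Fin n, an (x, i)) * (∑ i : Fin n, cr (y, i)) +
          (∑ i : Fin n, cr (x, i)) * (∑ i : Fin n, an (y, i)))) * (UU X n).map ((↑) : ℝ → ℂ) := by
    intro x y
    change (UU X n).map ((↑) : ℝ → ℂ) * (Sz n x * Sz n y + (1 / 2 : ℂ) •
      (Sp n x * Sm n y + Sm n x * Sp n y)) = _
    rw [map_add, map_smul, map_add, map_mul, map_mul, map_mul, e1, Complex.coe_smul]
    simp only [Matrix.mul_add, Matrix.add_mul, Matrix.mul_smul, Matrix.smul_mul]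
    rw [← Matrix.mul_assoc, ← Matrix.mul_assoc, ← Matrix.mul_assoc, hZ, hP, hM,
      Matrix.mul_assoc, Matrix.mul_assoc, Matrix.mul_assoc, hZ, hP, hM]
    simp only [Matrix.mul_assoc]
  rw [hamF, ham, magn, e1, ← Complex.ofReal_neg, Complex.coe_smul, Complex.coe_smul, map_sub,
    map_smul, map_smul, map_sum, map_sum]
  simp only [Matrix.mul_sub, Matrix.sub_mul, Matrix.mul_smul, Matrix.smul_mul, Matrix.mul_sum,
    Matrix.sum_mul, hZ, Complex.coe_smul, hD]
  congr 2
  refine Finset.sum_congr rfl fun x _ => ?_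
  rw [map_sum, Matrix.sum_mul]
  refine Finset.sum_congr rfl fun y _ => ?_
  rw [map_smul φ (J x y), Matrix.smul_mul]

end Crest.Agent.N337.Slot
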