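import Crest.Agent.N337.Defs

/-!
# Row 337: the spin-1/2 slot model (frozen definitions and interface statements)

Configurations `Λ → Bool` (`true` = down spin = magnon), REAL matrices.
-/

set_option autoImplicit false

namespace Crest.Agent.N337.Slot

open Crest.MathPhysics.SpinModel Filter Topology

section defs
variable {Λ : Type} [Fintype Λ] [DecidableEq Λ]

abbrev BOp (Λ : Type) : Type := Matrix (Λ → Bool) (Λ → Bool) ℝ

/-- tensor product of one-slot `2 × 2` matrices. -/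
def tens (A : Λ → Bool → Bool → ℝ) : BOp Λ := Matrix.of fun σ τ => ∏ x, A x (σ x) (τ x)

/-- `∏ₓ (1 + a x • b*ₓ)`. -/
def Ecr (a : Λ → ℝ) : BOp Λ :=
  tens fun x i j => if i = j then 1 else if i = true then a x else 0
/-- `∏ₓ (1 + a x • bₓ)`. -/
def Ean (a : Λ → ℝ) : BOp Λ :=
  tens fun x i j => if i = j then 1 else if j = true then a x else 0
/-- creation `b*ₓ`. -/
def cr (x : Λ) : BOp Λ :=
  tens fun y i j => if y = x then (if i = true ∧ j = false then 1 else 0) else (if i = j then 1 else 0)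
/-- annihilation `bₓ`. -/
def an (x : Λ) : BOp Λ :=
  tens fun y i j => if y = x then (if i = false ∧ j = true then 1 else 0) else (if i = j then 1 else 0)
def crF (a : Λ → ℝ) : BOp Λ := ∑ x, a x • cr x
def anF (a : Λ → ℝ) : BOp Λ := ∑ x, a x • an x
/-- projector: every slot of `A` is down. -/
def nb (A : Finset Λ) : BOp Λ := Matrix.diagonal fun σ => if ∀ x ∈ A, σ x = true then 1 else 0
/-- number of down slots. -/
def cnt (σ : Λ → Bool) : ℕ := (Finset.univ.filter fun x => σ x = true).card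
/-- fugacity `ζ^N`. -/
def fug (ζ : ℝ) : BOp Λ := Matrix.diagonal fun σ => ζ ^ cnt σ
/-- transposition of two slots. -/
def swp (x y : Λ) : BOp Λ := Matrix.of fun σ τ => if σ = τ ∘ Equiv.swap x y then 1 else 0
/-- Bernoulli step `(1-p) + p T`. -/
def step (x y : Λ) (p : ℝ) : BOp Λ := (1 - p) • (1 : BOp Λ) + p • swp x y

/-- finite products of Bernoulli steps and fugacities. -/
def Adm (Λ : Type) [Fintype Λ] [DecidableEq Λ] : Submonoid (BOp Λ) :=
  Submonoid.closure ({M | ∃ x y p, 0 ≤ p ∧ p ≤ 1 ∧ M = step x y p} ∪ {M | ∃ ζ, 0 < ζ ∧ M = fug ζ})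

/-- cyclic amplitude: at time `s` first the insertion `O s`, then the step `Y s`;
later times stand to the left. -/
def amp {T : ℕ} (Y O : Fin T → BOp Λ) : ℝ :=
  ((List.ofFn fun s => Y s * O s).reverse.prod).trace

/-- one insertion `A` at time `s`. -/
def ins1 {T : ℕ} (s : Fin T) (A : BOp Λ) : Fin T → BOp Λ := fun r => if r = s then A else 1
/-- two insertions at two different times. -/
def ins2 {T : ℕ} (s : Fin T) (A : BOp Λ) (t : Fin T) (B : BOp Λ) : Fin T → BOp Λ :=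
  fun r => if r = s then A else if r = t then B else 1

/-- one-particle step matrix `(1-p) + p T` on the slots outside `R` (zero on `R`). -/
def kstep (R : Finset Λ) (x y : Λ) (p : ℝ) : Matrix Λ Λ ℝ := Matrix.of fun u v =>
  if u ∈ R ∨ v ∈ R then 0 else
    (1 - p) * (if u = v then 1 else 0) + p * (if u = Equiv.swap x y v then 1 else 0)

/-- slot generator `∑_{ordered pairs} (r x y / 2) (T - 1) - h N`; `r` is the rate of an edge. -/
noncomputable def gen (r : Λ → Λ → ℝ) (h : ℝ) : BOp Λ :=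
  ∑ x, ∑ y, (r x y / 2) • (swp x y - 1) - h • Matrix.diagonal fun σ => (cnt σ : ℝ)

end defs

/-- **(LY)** Gaussian domination at two times. -/
def LYStmt : Prop :=
  ∀ (Λ : Type) [Fintype Λ] [DecidableEq Λ] (W1 W2 : BOp Λ),
    W1 ∈ closure (Adm Λ : Set (BOp Λ)) → W2 ∈ closure (Adm Λ : Set (BOp Λ)) →
    0 < (W1 * W2).trace →
    ∀ a' a c' c : Λ → ℝ, (∀ x, 0 ≤ a' x) → (∀ x, 0 ≤ a x) → (∀ x, 0 ≤ c' x) → (∀ x, 0 ≤ c x) →
      (Ecr c' * Ean c * W1 * (Ecr a' * Ean a) * W2).trace ≤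
        (W1 * W2).trace * Real.exp
          (((W1 * (crF a' * anF a) * W2).trace + (anF c * W1 * crF a' * W2).trace +
            (crF c' * W1 * anF a * W2).trace + (crF c' * anF c * W1 * W2).trace) /
            (W1 * W2).trace)

/-- **(Rep)** determinantal environment representation (exact, finite).  `Ω` = environments,
`ν` their weights, `R ω s` the red slots at time `s`, `K ω s` the green one-particle step,
`G ω v u` the green Green function from `u` to `v`. -/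
def RepStmt : Prop :=
  ∀ (Λ : Type) [Fintype Λ] [DecidableEq Λ] (T : ℕ) [NeZero T] (ex ey : Fin T → Λ)
    (p ζ : Fin T → ℝ), 2 ≤ T → (∀ s, 0 ≤ p s ∧ p s ≤ 1) →
    (∀ s, 0 < ζ s ∧ ζ s ≤ 1) → ∏ s, ζ s < 1 →
    let Y : Fin T → BOp Λ := fun s => fug (ζ s) * step (ex s) (ey s) (p s)
    ∃ (Ω : Type) (_ : Fintype Ω) (ν : Ω → ℝ) (R : Ω → Fin T → Finset Λ)
      (K : Ω → Fin T → Matrix Λ Λ ℝ) (G : Ω → Fin T × Λ → Fin T × Λ → ℝ),
      (∀ ω, 0 ≤ ν ω) ∧ ∑ ω, ν ω = amp Y (fun _ => 1) ∧ 1 ≤ amp Y (fun _ => 1) ∧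
      (∀ ω, 0 < ν ω →
        (∀ v u, 0 ≤ G ω v u ∧ G ω v u ≤ 1 / (1 - ∏ s, ζ s)) ∧
        (∀ v u, v.2 ∈ R ω v.1 ∨ u.2 ∈ R ω u.1 → G ω v u = 0) ∧
        (∀ s y u, G ω (s + 1, y) u =
          (if (s + 1, y) = u ∧ y ∉ R ω (s + 1) then 1 else 0) +
            ζ s * ∑ x, K ω s y x * G ω (s, x) u) ∧
        (∀ s (f : Λ → ℝ), ∑ y, ((K ω s).mulVec f y) ^ 2 ≤ ∑ x, f x ^ 2) ∧
        (∀ s, R ω (s + 1) = R ω s → K ω s =
          if ex s ∉ R ω s ∧ ey s ∉ R ω s then kstep (R ω s) (ex s) (ey s) (p s)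
          else kstep (R ω s) (ex s) (ey s) 0)) ∧
      (∀ s t x y, s ≠ t → ∑ ω, ν ω * G ω (t, y) (s, x) = amp Y (ins2 s (cr x) t (an y))) ∧
      (∀ s t x y (A : Finset Λ), s ≠ t →
        ∑ ω, ν ω * (if A ⊆ R ω s then G ω (t, y) (s, x) else 0) ≤
          2 ^ A.card * amp Y (ins2 s (cr x * nb A) t (an y))) ∧
      (∀ s t x y (A : Finset Λ), s ≠ t →
        ∑ ω, ν ω * (if A ⊆ R ω t then G ω (t, y) (s, x) else 0) ≤
          2 ^ A.card * amp Y (ins2 s (cr x) t (nb A * an y))) ∧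
      (∀ s (A : Finset Λ), ∑ ω, ν ω * (if A ⊆ R ω s then 1 else 0) ≤
          2 ^ A.card * amp Y (ins1 s (nb A))) ∧
      (∀ s, ∑ ω, ν ω * (if R ω (s + 1) = R ω s then 0 else 1) ≤ 2 ^ Fintype.card Λ * p s)

/-- **(Slot)** spin `n/2` as the symmetric subspace of `n` slots per site. -/
def SlotStmt : Prop :=
  ∀ (X : Type) [Fintype X] [DecidableEq X] (n : ℕ) (J : X → X → ℝ) (h : ℝ), 1 ≤ n → Ferro J →
    ∃ (U : Matrix (X × Fin n → Bool) (X → Fin (n + 1)) ℝ) (c0 : ℝ)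
      (w : List ((X × Fin n) × (X × Fin n) × ℝ)),
      (∀ q ∈ w, 0 ≤ q.2.2 ∧ q.2.2 ≤ 1) ∧
      U.transpose * U = 1 ∧
      U * U.transpose = (w.map fun q => step q.1 q.2.1 q.2.2).prod ∧
      (∀ x, U.map ((↑) : ℝ → ℂ) * Sp n x =
        (∑ i : Fin n, an (x, i)).map ((↑) : ℝ → ℂ) * U.map ((↑) : ℝ → ℂ)) ∧
      (∀ x, U.map ((↑) : ℝ → ℂ) * Sm n x =
        (∑ i : Fin n, cr (x, i)).map ((↑) : ℝ → ℂ) * U.map ((↑) : ℝ → ℂ)) ∧
      U.map ((↑) : ℝ → ℂ) * hamF n J h =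
        (c0 • (1 : BOp (X × Fin n)) -
          gen (fun u v : X × Fin n => J u.1 v.1 / 2) h).map ((↑) : ℝ → ℂ) * U.map ((↑) : ℝ → ℂ)

end Crest.Agent.N337.Slot
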